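import Vale.Agent.P015.Final

namespace Vale.Agent.Results.P015.Moat

open Vale.Agent.P015

theorem result (D : ℝ) :
    (∀ C : (moatGraph D).ConnectedComponent, C.supp.Finite) ∧
    ¬ ∃ z : ℕ → GaussianInt, Function.Injective z ∧ (∀ n, Irreducible (z n)) ∧
      ∀ n, gdist (z n) (z (n + 1)) ≤ D :=
  ⟨fun C => ((uniform_bound D).choose_spec C).1, no_walk D⟩

end Vale.Agent.Results.P015.Moat
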