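import Vale.Agent.P015.Final

namespace Vale.Agent.Results.P015.Uniform

open Vale.Agent.P015

theorem result (D : ℝ) :
    ∃ B : ℕ, ∀ C : (moatGraph D).ConnectedComponent, C.supp.Finite ∧ C.supp.ncard ≤ B :=
  uniform_bound D

end Vale.Agent.Results.P015.Uniform
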